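import Crest.Agent.X212.Cay24.Out
import Crest.Agent.X212.Dec35.Cyl
import Crest.Agent.X212.Dgr80.Lf
import Crest.Agent.X212.Nka63.B
import Mathlib.Analysis.SpecialFunctions.ImproperIntegrals

-- ▼ part X212/Cay24/TmpE
section

/-!
# Row 212, EN-TMP (helper24): exponentially converging configurations in temporal gauge
-/

set_option autoImplicit false
set_option linter.unusedSectionVars false
noncomputable section
open scoped Manifold ContDiff Topology InnerProductSpace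
open MeasureTheory Set Function Filter Real

namespace Crest.Agent.X212.Cay24
open An Sob92 Cyf70 Neck67 Cmp73 Pj41 Eqv71 Tmp64 Nd18 Bki64 Dgr80

section gen
variable {E : Type} [NormedAddCommGroup E] [NormedSpace ℝ E] [FiniteDimensional ℝ E]
  [MeasurableSpace E] [BorelSpace E]
  {HM : Type} [TopologicalSpace HM] {I : ModelWithCorners ℝ E HM} [I.Boundaryless]
  {M : Type} [TopologicalSpace M] [ChartedSpace HM M] [IsManifold I ∞ M]
  [MeasurableSpace M] [T2Space M] [BorelSpace M] [SecondCountableTopology M]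
  {ι : Type} [Fintype ι] {lam : Type} [Fintype lam] {r : ℕ} {B : Base M ι lam} {G : Geo I M ι lam}

theorem OB.sum {N α η : Type} [NormedAddCommGroup N] [NormedSpace ℝ N] {F : Pre I M ι}
    {l : Filter α} {S : α → Set M} {k : ℕ} {e : α → ℝ} (hS : ∀ᶠ n in l, IsOpen (S n))
    {f : η → α → M → N} (h : ∀ i, OB F l S k e (f i)) (s : Finset η) :
    OB F l S k e fun n x => ∑ i ∈ s, f i n x := by
  induction s using Finset.cons_induction with
  | empty => exact OB.zero hS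
  | cons a s ha ih => simpa only [Finset.sum_cons] using (h a).add ih

theorem OB.pi {N α η : Type} [NormedAddCommGroup N] [InnerProductSpace ℝ N] [Fintype η]
    {F : Pre I M ι} {l : Filter α} {S : α → Set M} {k : ℕ} {e : α → ℝ}
    (hS : ∀ᶠ n in l, IsOpen (S n)) {f : α → M → Fm η N}
    (h : ∀ i, OB F l S k e fun n x => f n x i) : OB F l S k e f := by
  classical
  refine (OB.sum hS (fun i => (h i).clm ((PiLp.continuousLinearEquiv 2 ℝ
    fun _ : η => N).symm.toContinuousLinearMap ∘L ContinuousLinearMap.single ℝ (fun _ : η => N) i))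
    Finset.univ).congr (Eventually.of_forall fun _ x _ => ?_)
  ext1 i
  simp [Pi.single_apply, Finset.sum_apply]

theorem addC_dif {m : Md M ι lam} {W W' : m.Cn} (H : m.OK I B) (C : m.IsConn B G W)
    (C' : m.IsConn B G W') {a : ι} {x : M} (h : (1 - m.p x) * W a x * (1 - m.p x) = 0)
    (h' : (1 - m.p x) * W' a x * (1 - m.p x) = 0) : m.addC W (Spn45.dif m W W') a x = W' a x := by
  have e : (1 - m.p x) * (W' a x - W a x) * (1 - m.p x) = 0 := by
    rw [mul_sub (1 - m.p x), sub_mul, h, h', sub_self]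
  rw [sub_mul, one_mul, mul_sub, mul_one, sub_mul, mul_assoc, Spn45.sub_p C C', ← mul_assoc,
    H.pidem, sub_self, sub_zero, sub_eq_zero] at e
  rw [Md.addC, Spn45.dif_apply, opL_hsL, ← e, add_sub_cancel]

variable (F : Fr I M ι) (c c' : Cfg M ι lam r) (g : M → CL c.m.V c'.m.V)

/-- the transported connection of `c'` minus the connection of `c` -/
def tA (x : M) : Fm ι c.m.A := WithLp.toLp 2 fun i => hsL (ad (g x) ∘L dA F c c' g i x ∘L g x)

/-- the transported spinor of `c'` minus the spinor of `c` -/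
def tP (ζ : Circle) (x : M) : c.m.V := ad (g x) (csB c'.m.J (ζ⁻¹ : Circle) (c'.Φ x)) - c.Φ x

variable {F c c' g} {α : M → Fm ι c.m.A} {φ : M → c.m.V}

theorem cov_vr (a : ι) (x : M) :
    Bki64.cov F (vr c α φ) c' g a x = Bki64.cov F c c' g a x - g x ∘L opL (α x a) := by
  change F.D a g x + c'.W a x ∘L g x - g x ∘L (c.W a x + opL (α x a)) =
    F.D a g x + c'.W a x ∘L g x - g x ∘L c.W a x - g x ∘L opL (α x a)
  rw [ContinuousLinearMap.comp_add, sub_sub]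

theorem gd_vr (h : Dec35.Bs B G c) (hα : G.F.Cb α) (hφ : G.F.Cb φ) (k : (vr c α φ).Adm B G) :
    Gd B G (vr c α φ) :=
  ⟨⟨h.hB, h.hG, k.ok, k.conn, h.tame, fun a => Cb_add (h.cW a)
    (Cb_clm opL (Cb_clm (Map77.pj _ a) hα)), h.dat.pg h.hB (Std94.pmx h.adm.ok)⟩, k, Cb_add h.cΦ hφ, h.dat.p,
    h.dat.ρ, h.dat.j⟩

theorem gd_bs (h : Dec35.Bs B G c) : Gd B G c :=
  ⟨⟨h.hB, h.hG, h.adm.ok, h.adm.conn, h.tame, h.cW, h.dat.pg h.hB (Std94.pmx h.adm.ok)⟩, h.adm, h.cΦ, h.dat.p,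
    h.dat.ρ, h.dat.j⟩

variable (hc : c.Adm B G) (hc' : c'.Adm B G) (hg : Iso0 I c.m c'.m univ g)
include hc hc' hg

theorem tA_vr (h : ∀ x a, α x a ∈ c.m.gS x) (x : M) :
    α x - tA F c c' g x = -tA F (vr c α φ) c' g x := by
  have k := hg.iso x trivial
  ext1 a
  have e : ad (g x) ∘L ((g x ∘L opL (α x a)) ∘L trn (g x)) ∘L g x = opL (α x a) := by
    rw [← ad_trn, ContinuousLinearMap.comp_assoc, k.src, ContinuousLinearMap.comp_assoc,
      ← ContinuousLinearMap.comp_assoc, k.src]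
    exact (congrArg _ (Wz78.g_p' hc.ok (h x a))).trans (Wz78.g_p (h x a))
  refine Eq.trans ?_ (congrArg (fun T : CL c.m.V c'.m.V =>
    -hsL (ad (g x) ∘L (T ∘L trn (g x)) ∘L g x)) (cov_vr (φ := φ) a x)).symm
  change α x a - hsL (ad (g x) ∘L (Bki64.cov F c c' g a x ∘L trn (g x)) ∘L g x) = _
  rw [ContinuousLinearMap.sub_comp, ContinuousLinearMap.sub_comp,
    ContinuousLinearMap.comp_sub, e, map_sub, hsL_opL, neg_sub]

omit hc in
theorem tP_vr (hc : (vr c α φ).Adm B G) (ζ : Circle) (x : M) : φ x - tP c c' g ζ x =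
    ad (g x) (csB c'.m.J (ζ⁻¹ : Circle) (dP (vr c α φ) c' g ζ x)) := by
  have e : c.m.p x (c.Φ x + φ x) = c.Φ x + φ x := (admOn_univ.2 hc).pΦ (mem_univ x)
  change _ = ad (g x) (csB c'.m.J (ζ⁻¹ : Circle) (cs c'.m.J ζ (g x (c.Φ x + φ x)) - c'.Φ x))
  rw [map_sub, csB_apply, cs_mul hc'.ok.Jsq, ← Circle.coe_mul, inv_mul_cancel, Circle.coe_one,
    cs_one, map_sub, ← ContinuousLinearMap.comp_apply, (hg.iso x trivial).src, e, tP]
  abel

/-- `c'` transported to the module of `c` -/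
theorem t_spec (hB : B.OK I) (hG : G.OK B) (ζ : Circle) :
    (vr c (tA G.F c c' g) (tP c c' g ζ)).Adm B G ∧ Sm I (tA G.F c c' g) ∧ Sm I (tP c c' g ζ) ∧
      (∀ x a, tA G.F c c' g x a ∈ c.m.gS x) ∧
      (∀ a x, Bki64.cov G.F (vr c (tA G.F c c' g) (tP c c' g ζ)) c' g a x = 0) ∧
      ∀ x, cs c'.m.J ζ (g x (c.Φ x + tP c c' g ζ x)) = c'.Φ x := by
  have h1 : (⟨c'.m, c'.W, fun x => csB c'.m.J (ζ⁻¹ : Circle) (c'.Φ x), c'.z⟩ : Cfg M ι lam r).Adm
      B G := ⟨hc'.ok, hc'.conn, Dec35.sm_clm _ hc'.sm, fun x =>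
        (map_cs (Wz78.J_pp hc'.ok x).symm _ _).trans (congrArg _ (hc'.pos x)), hc'.z⟩
  obtain ⟨h2, h3⟩ := psh_spec (m' := c.m) hB hG.P h1 hc.ok
    (hg.symm (OK.on hc.ok _) (OK.on hc'.ok _))
  obtain ⟨W, hW⟩ : ∃ W : c.m.Cn, W = pshC G.F (fun x => ad (g x)) c'.W := ⟨_, rfl⟩
  have k1 : c.m.IsConn B G W := hW ▸ h2.conn
  have k2 : Par0 G.F c'.W W univ fun x => ad (g x) := hW ▸ h3.par
  have k3 : ∀ a x, Bki64.cov G.F c c' g a x = g x ∘L (W a x - c.W a x) := fun a x => by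
    have := k2.symm (fun x _ => (hg.su x trivial).ad) (fun a x _ => hc'.conn.sk a x)
      (fun a x _ => k1.sk a x) x trivial a
    simp only [ad_ad] at this
    rw [Bki64.cov, sub_eq_zero.1 this, ContinuousLinearMap.comp_sub]
  have k4 : tA G.F c c' g = Spn45.dif c.m c.W W := funext fun x => by
    ext1 a
    refine congrArg hsL ?_
    rw [dA_u hg isOpen_univ (admOn_univ.2 hc) trivial, k3, ← ContinuousLinearMap.comp_assoc,
      (hg.iso x trivial).src]
    rfl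
  have k5 : ∀ x, c.Φ x + tP c c' g ζ x = ad (g x) (csB c'.m.J (ζ⁻¹ : Circle) (c'.Φ x)) := fun x =>
    add_sub_cancel _ _
  rw [k4]
  have s1 := Spn45.sm_dif hc.ok hc.conn k1
  refine ⟨⟨hc.ok, Spn45.isConn_addC hc.ok hc.conn s1 (Spn45.p1_dif hc.conn k1 hc.ok),
    h2.sm.congr k5, fun x => (congrArg (c.m.pp B x) (k5 x)).trans ((h2.pos x).trans (k5 x).symm),
    hc.z⟩, s1, h2.sm.sub hc.sm,
    Spn45.dif_mem hc.conn k1 hc.ok, fun a x => ?_, fun x => ?_⟩
  · refine (cov_vr a x).trans ?_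
    rw [k3, Spn45.dif_apply, opL_hsL, ContinuousLinearMap.mul_def,
      ← ContinuousLinearMap.comp_assoc, (hg.iso x trivial).idem]
    exact sub_self _
  · have e : c'.m.p x (csB c'.m.J (ζ⁻¹ : Circle) (c'.Φ x)) = cs c'.m.J (ζ⁻¹ : Circle) (c'.Φ x) :=
      (admOn_univ.2 h1).pΦ (mem_univ x)
    rw [k5, ← ContinuousLinearMap.comp_apply, (hg.iso x trivial).tgt, e, cs_mul hc'.ok.Jsq,
      ← Circle.coe_mul, mul_inv_cancel, Circle.coe_one, cs_one]

end gen

variable {E3 : Type} [NormedAddCommGroup E3] [NormedSpace ℝ E3] [FiniteDimensional ℝ E3]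
  [MeasurableSpace E3] [BorelSpace E3]
  {H3 : Type} [TopologicalSpace H3] {I3 : ModelWithCorners ℝ E3 H3} [I3.Boundaryless]
  {Y : Type} [TopologicalSpace Y] [ChartedSpace H3 Y] [IsManifold I3 ∞ Y] [T2Space Y]
  [MeasurableSpace Y] [BorelSpace Y] [SecondCountableTopology Y] [CompactSpace Y]
  {κ : Type} [Fintype κ] {lam : Type} [Fintype lam] {D : YD I3 Y κ lam} {β γ : YC Y κ lam}
  {c : Cfg (Y × ℝ) (Option κ) lam 0} {σ d : ℝ} {ζ : Circle}

/-- a configuration on the module of `cy β` -/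
abbrev mc (β : YC Y κ lam) (W : (cy β).m.Cn) (Φ : Y × ℝ → β.m.V) : Cfg (Y × ℝ) (Option κ) lam 0 :=
  ⟨(cy β).m, W, Φ, β.z⟩

theorem exists_mc (hD : D.OK) (hc : c.Adm D.B D.G) : ∃ (β : YC Y κ lam) (W : (cy β).m.Cn)
    (Φ : Y × ℝ → β.m.V) (u : Y × ℝ → CL c.m.V β.m.V), D.Adm β ∧ Tmp64.Red (cy β) ∧
      (mc β W Φ).Adm D.B D.G ∧ Tmp (mc β W Φ) ∧ Tmp64.Red (mc β W Φ) ∧
      Eq0 D.Z c (mc β W Φ) univ u := by
  obtain ⟨u, k1, k2, k3, k4, -⟩ := (cyD D).exists_tmp hD.B hc 0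
  have h := (cyD D).adm_sq (θ := fun _ => 0) contDiff_const k1
  have e : (frz 0 (Cy.tmpC D.G c 0 u)).W = fun a x => (Cy.tmpC D.G c 0 u).W a (x.1, 0) :=
    funext₂ fun a x => by
      cases a
      exacts [(frz_none _ _).trans (k3.W _).symm, frz_some _ _ _]
  exact ⟨pb (fun y => (y, 0)) (Cy.tmpC D.G c 0 u), _, _, u, ⟨⟨h.ok, (e ▸ h.conn :), h.sm, h.pos, h.z⟩,
    fun y => k3.W _⟩, fun a x => k4 a (x.1, 0), k1, k3, k4, k2⟩

/-- a configuration in temporal gauge as a variation of its slice -/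
theorem exists_vr (hD : D.OK) (hc : c.Adm D.B D.G) : ∃ (β : YC Y κ lam)
    (α : Y × ℝ → Fm (Option κ) β.m.A) (φ : Y × ℝ → β.m.V) (u : Y × ℝ → CL c.m.V β.m.V),
    D.Adm β ∧ (vr (cy β) α φ).Adm D.B D.G ∧ Tmp (vr (cy β) α φ) ∧ Tmp64.Red (vr (cy β) α φ) ∧
      Eq0 D.Z c (vr (cy β) α φ) univ u ∧ Sm (IC I3) α ∧ Sm (IC I3) φ ∧
      (∀ x i, α x i ∈ β.m.gS x.1) ∧ ∀ x, α x none = 0 := by
  obtain ⟨β, W, Φ, u, hβ, k0, k1, k3, k4, k2⟩ := exists_mc hD hc
  have key : ∀ W' Φ', W' = W → Φ' = Φ → (mc β W' Φ').Adm D.B D.G ∧ Tmp (mc β W' Φ') ∧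
      Tmp64.Red (mc β W' Φ') ∧ Eq0 D.Z c (mc β W' Φ') univ u := by
    rintro _ _ rfl rfl
    exact ⟨k1, k3, k4, k2⟩
  have C : (cy β).m.IsConn D.B D.G W := k1.conn
  have s1 : Sm (IC I3) Φ := k1.sm
  have s2 : Sm (IC I3) fun x : Y × ℝ => β.Φ x.1 := hβ.adm.sm
  obtain ⟨h1, h2, h3, h4⟩ := key ((cy β).m.addC (cy β).W (Spn45.dif (cy β).m (cy β).W W))
    (fun x => β.Φ x.1 + (Φ x - β.Φ x.1)) (funext₂ fun a x =>
      addC_dif hβ.adm.ok hβ.adm.conn C (k0 a x) (k4 a x)) (funext fun x => add_sub_cancel _ _)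
  refine ⟨β, Spn45.dif (cy β).m (cy β).W W, fun x => Φ x - β.Φ x.1, u, hβ, h1, h2, h3, h4,
    (Spn45.sm_dif hβ.adm.ok hβ.adm.conn C :), (s1.sub s2 :),
    fun x i => (Spn45.dif_mem hβ.adm.conn C hβ.adm.ok x i :), fun x => ?_⟩
  change hsL ((cy β).m.p x * (W none x - (cy β).W none x)) = 0
  rw [show W none x = 0 from k3.W x, show (cy β).W none x = 0 from hβ.tmp _, sub_self, mul_zero,
    map_zero]

/-- convergence along the end `σ` in a `t`-invariant gauge -/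
theorem end_g (hγ : D.Adm γ) (hc : c.Adm D.B D.G) (ht : Tmp c) (hr : Tmp64.Red c)
    (hσ : σ = 1 ∨ σ = -1) (hd : 0 < d) {u : Y × ℝ → CL c.m.V (cy γ).m.V} {T : ℝ}
    (H : ∀ k, ∃ C, ∀ s, T ≤ σ * s →
      Cl D.Z c (cy γ) u (fun _ => ζ) (win Y s 1) k (C * exp (-d * |s|))) :
    ∃ g : Y → CL c.m.V (cy γ).m.V, Iso0 (IC I3) c.m (cy γ).m univ (fun x => g x.1) ∧
      ∀ k, ∃ C, ∀ s, 0 ≤ σ * s → Cl D.Z c (cy γ) (fun x => g x.1) (fun _ => ζ) (win Y s 1) k
        (C * exp (-d * |s|)) := by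
  replace H : ∀ k, ∃ C, ∀ᶠ s in atTop,
      Cl D.Z c (cy γ) u (fun _ => ζ) (wn Y σ s) k (C * exp (-d * |s|)) := fun k =>
    (H k).imp fun C h => (eventually_ge_atTop T).mono fun s hs =>
      abs_σ hσ s ▸ h (σ * s) (by rwa [σ_σ hσ])
  refine out_tmp hγ hc ht hr hσ hd (h := u) (fun k => ?_) (fun k ε hε => ?_) 0
  · obtain ⟨C, h⟩ := H k
    obtain ⟨B, -, h1, h2⟩ := lb_cy hγ k
    exact ⟨B, C, h.mono fun s hs => ⟨γ.W, γ.Φ, u, ζ, hγ, h1, h2, hs⟩⟩
  · obtain ⟨C, h⟩ := H k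
    have := (tendsto_exp_atBot.comp (tendsto_abs_atTop_atTop.const_mul_atTop_of_neg
      (neg_lt_zero.2 hd))).const_mul C
    rw [mul_zero] at this
    exact (h.and (this.eventually_le_const hε)).mono fun s hs =>
      hs.1.mono (win_op _ _) Subset.rfl le_rfl hs.2

theorem elim_cl (hγ : D.Adm γ) (hc : c.Adm D.B D.G) (hσ : σ = 1 ∨ σ = -1) {l : Filter ℝ}
    (hl : ∀ S ∈ l, ∃ T, ∀ s, T ≤ σ * s → s ∈ S) (H : D.nk.ELim d c γ ζ l) :
    ∃ u T, ∀ k, ∃ C, ∀ s, T ≤ σ * s →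
      Cl D.Z c (cy γ) u (fun _ => ζ) (win Y s 1) k (C * exp (-d * |s|)) := by
  obtain ⟨u, S, hS, -, -, H⟩ := H
  obtain ⟨T, hT⟩ := hl S hS
  refine ⟨u, T + 1, fun k => (H k).imp fun C h s hs => cl_of_cls hγ
    ((admOn_univ.2 hc).mono (subset_univ _)) (h s fun t ht => hT t ?_)⟩
  rcases hσ with rfl | rfl <;> linarith [ht.1, ht.2]

variable (D) in
/-- exponential decay on a half cylinder -/
abbrev OE {N : Type} [NormedAddCommGroup N] [NormedSpace ℝ N] (σ d : ℝ) (k : ℕ) (f : Y × ℝ → N) :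
    Prop := OB D.Z.toPre ⊤ (fun s : {s : ℝ // 0 ≤ σ * s} => win Y s 1) k (fun s => -d * |s.1|)
      fun _ => f

variable {α : Y × ℝ → Fm (Option κ) β.m.A} {φ : Y × ℝ → β.m.V}

theorem tA_fst (hβ : D.Adm β) (hγ : D.Adm γ) {g : Y → CL β.m.V γ.m.V} (sg : Sm I3 g) :
    ∃ a : Y → Fm (Option κ) β.m.A, tA D.G.F (cy β) (cy γ) (fun x => g x.1) = (fun x => a x.1) ∧
      ∀ y, a y none = 0 := by
  have d0 : D.Z.D none (fun x => g x.1) = 0 := D_none_fst D.F.toPre sg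
  refine ⟨fun y => tA D.G.F (cy β) (cy γ) (fun x => g x.1) (y, 0), funext fun x => ?_, fun y => ?_⟩
  · have : ∀ i, D.Z.D i (fun x => g x.1) x = D.Z.D i (fun x => g x.1) (x.1, 0) := fun i => by
      cases i
      · rw [d0]; rfl
      · exact (congrFun (D_some_fst D.F.toPre sg _) _).trans
          (congrFun (D_some_fst D.F.toPre sg _) (x.1, 0)).symm
    ext1 i
    exact congrArg (fun T : CL β.m.V γ.m.V => hsL (ad (g x.1) ∘L ((T + γ.W i x.1 ∘L g x.1 -
      g x.1 ∘L β.W i x.1) ∘L trn (g x.1)) ∘L g x.1)) (this i)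
  · change hsL (ad (g y) ∘L ((D.Z.D none (fun x => g x.1) (y, 0) + γ.W none y ∘L g y -
      g y ∘L β.W none y) ∘L trn (g y)) ∘L g y) = 0
    rw [hβ.tmp, hγ.tmp, d0]
    simp

/-- the limit along one end -/
theorem end_lim (hD : D.OK) (hβ : D.Adm β) (hγ : D.Adm γ) (hc : (vr (cy β) α φ).Adm D.B D.G)
    (hα : ∀ x i, α x i ∈ β.m.gS x.1) {g : Y → CL β.m.V γ.m.V}
    (hg : Iso0 (IC I3) (cy β).m (cy γ).m univ fun x => g x.1)
    (H : ∀ k, ∃ C, ∀ s, 0 ≤ σ * s → Cl D.Z (vr (cy β) α φ) (cy γ) (fun x => g x.1) (fun _ => ζ)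
      (win Y s 1) k (C * exp (-d * |s|))) :
    ∃ (a : Y → Fm (Option κ) β.m.A) (b : Y → β.m.V), Sm I3 a ∧ Sm I3 b ∧ (∀ y i, a y i ∈ β.m.gS y) ∧ D.Adm (vr β a b) ∧
      D.Eqv (vr β a b) γ ∧ ∀ k, OE D σ d k (fun x => α x - a x.1) ∧
        OE D σ d k fun x => φ x - b x.1 := by
  have sg : Sm I3 g := fun y => sm_slice (t := 0) (hg.su (y, 0) trivial)
  obtain ⟨k1, k2, k3, k4, k5, k6⟩ := t_spec hβ.adm hγ.adm hg hD.B hD.G ζ
  obtain ⟨a, ea, z⟩ := tA_fst hβ hγ sg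
  obtain ⟨b, eb⟩ : ∃ b : Y → β.m.V, tP (cy β) (cy γ) (fun x => g x.1) ζ = fun x => b x.1 :=
    ⟨fun y => tP (cy β) (cy γ) (fun x => g x.1) ζ (y, 0), rfl⟩
  have e1 := tA_vr (F := D.G.F) (φ := φ) hβ.adm hγ.adm hg hα
  have e2 := tP_vr (c := cy β) hγ.adm hg hc ζ
  rw [ea] at k1 k2 k4 k5 e1
  rw [eb] at k1 k3 k5 k6 e2
  have h : D.Adm (vr β a b) := ⟨k1, fun y => by
    change β.W none y + opL (a y none) = 0
    rw [z, hβ.tmp, map_zero, add_zero]⟩
  refine ⟨a, b, sm_slice_fst k2 0, sm_slice_fst k3 0, fun y => k4 (y, 0), h,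
    Stb.eqv (g := g) (ξ := ζ) ⟨hg, k5, fun y => k6 (y, 0)⟩ hD h hγ, fun k => ?_⟩
  obtain ⟨C, H⟩ := H k
  have op : ∀ᶠ s : {s : ℝ // 0 ≤ σ * s} in ⊤, IsOpen (win Y s 1) :=
    Eventually.of_forall fun _ => win_op _ _
  have bg := BB.fst (F := D.F.toPre) op k sg
  have hA : ∀ i, OE (N := En (Fin γ.m.N)) D σ d k
      (dA D.Z (vr (cy β) α φ) (cy γ) (fun x => g x.1) i) := fun i =>
    ⟨|C|, abs_nonneg _, Eventually.of_forall fun s => ⟨win_op _ _,
      ((H s s.2).A i).mono (by gcongr; exact le_abs_self _)⟩⟩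
  have hP : OE (N := γ.m.V) D σ d k (dP (vr (cy β) α φ) (cy γ) (fun x => g x.1) ζ) :=
    ⟨|C|, abs_nonneg _, Eventually.of_forall fun s => ⟨win_op _ _,
      (H s s.2).P.mono (by gcongr; exact le_abs_self _)⟩⟩
  exact ⟨OB.pi op fun i => ((((hA i).comp bg).comp' bg.ad).clm (-hsL)).congr
      (Eventually.of_forall fun _ x _ => congrArg (· i) (e1 x)),
    ((hP.clm (csB γ.m.J (ζ⁻¹ : Circle))).app' bg.ad).congr (Eventually.of_forall fun _ x _ => e2 x)⟩

section oe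
variable {N : Type} [NormedAddCommGroup N] [NormedSpace ℝ N] {f : Y × ℝ → N} {k : ℕ}

theorem OE.le (h : OE D σ d k f) : ∃ C ≥ 0, ∀ w : List (Option κ), w.length ≤ k → ∀ x : Y × ℝ,
    0 ≤ σ * x.2 → ‖D.Z.Dw w f x‖ ≤ C * exp (-d * |x.2|) :=
  let ⟨C, h0, h⟩ := h
  ⟨C, h0, fun w hw x hx => (eventually_top.1 h ⟨x.2, hx⟩).2.Dw w hw x ⟨trivial, by simp, by simp⟩⟩

theorem cb_of_oe (hd : 0 < d) (hf : Sm (IC I3) f) {a a' : Y → N} (ha : Sm I3 a) (ha' : Sm I3 a')
    (h : ∀ k, OE D (-1) d k fun x => f x - a x.1) (h' : ∀ k, OE D 1 d k fun x => f x - a' x.1) :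
    D.Z.Cb f := by
  have key : ∀ {σ : ℝ} {a : Y → N}, Sm I3 a → (∀ k, OE D σ d k fun x => f x - a x.1) → ∀ k, ∃ C,
      ∀ w : List (Option κ), w.length ≤ k → ∀ x : Y × ℝ, 0 ≤ σ * x.2 → ‖D.Z.Dw w f x‖ ≤ C :=
    fun ha h k => by
      obtain ⟨C, h⟩ := ((((h k).bb fun s => by nlinarith [abs_nonneg s.1]).add
        (BB.fst (F := D.F.toPre) (h k).op k ha)).congr (f' := fun _ => f)
        (Eventually.of_forall fun _ _ _ => (sub_add_cancel _ _).symm))
      exact ⟨C, fun w hw x hx => (eventually_top.1 h ⟨x.2, hx⟩).2.Dw w hw x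
        ⟨trivial, by simp, by simp⟩⟩
  choose C hC using key ha h
  choose C' hC' using key ha' h'
  exact ⟨fun k => max (C k) (C' k), hf, fun k w hw x => (le_total x.2 0).elim
    (fun h => le_max_of_le_left (hC k w hw x (by linarith)))
    fun h => le_max_of_le_right (hC' k w hw x (by linarith))⟩

end oe

theorem tmpStmt : Dgr80.TmpStmt I3 Y κ lam := fun D hD _ c γ γ' ζ ζ' d hd hc hγ hγ' H H' => by
  obtain ⟨β, α, φ, τ, hβ, k1, k2, k3, k4, k5, k6, k7, k8⟩ := exists_vr hD hc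
  have e := k4.symm (G := D.G) (admOn_univ.2 hc) (admOn_univ.2 k1)
  have key : ∀ {σ : ℝ} {γ : YC Y κ lam} {ζ : Circle} {l : Filter ℝ}, σ = 1 ∨ σ = -1 → D.Adm γ →
      (∀ S ∈ l, ∃ T, ∀ s, T ≤ σ * s → s ∈ S) → D.nk.ELim d c γ ζ l →
      ∃ (a : Y → Fm (Option κ) β.m.A) (b : Y → β.m.V), Sm I3 a ∧ Sm I3 b ∧
        (∀ y i, a y i ∈ β.m.gS y) ∧ D.Adm (vr β a b) ∧ D.Eqv (vr β a b) γ ∧
        ∀ k, OE D σ d k (fun x => α x - a x.1) ∧ OE D σ d k fun x => φ x - b x.1 :=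
    fun hσ hγ hl H => by
      obtain ⟨u, T, H⟩ := elim_cl hγ hc hσ hl H
      obtain ⟨g, hg, H⟩ := end_g hγ k1 k2 k3 hσ hd fun k => (H k).imp fun C h s hs =>
        cl_pre e (h s hs) (subset_univ _)
      exact end_lim hD hβ hγ k1 k7 hg H
  obtain ⟨a, b, a1, a2, a3, a4, a5, a6⟩ := key (.inr rfl) hγ (fun S hS =>
    let ⟨T, h⟩ := mem_atBot_sets.1 hS; ⟨-T, fun s hs => h s (by linarith)⟩) H
  obtain ⟨a', b', b1, b2, b3, b4, b5, b6⟩ := key (.inl rfl) hγ' (fun S hS =>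
    let ⟨T, h⟩ := mem_atTop_sets.1 hS; ⟨T, fun s hs => h s (by linarith)⟩) H'
  have cA := cb_of_oe hd k5 a1 b1 (fun k => (a6 k).1) fun k => (b6 k).1
  have cP := cb_of_oe hd k6 a2 b2 (fun k => (a6 k).2) fun k => (b6 k).2
  refine ⟨β, d, α, φ, fun s => bif s then a' else a, fun s => bif s then b' else b,
    ⟨hd, hβ, gd_vr (Dec35.bs_cyl hD hβ) cA cP k1, cA, cP, k7, k8, Bool.forall_bool.2 ⟨a1, b1⟩,
      Bool.forall_bool.2 ⟨a2, b2⟩, Bool.forall_bool.2 ⟨a3, b3⟩, Bool.forall_bool.2 ⟨a4, b4⟩,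
      Bool.forall_bool.2 ⟨gd_bs (Dec35.bs_cyl hD a4), gd_bs (Dec35.bs_cyl hD b4)⟩, ?_⟩,
    k4.cfgIso (G := D.G) hD.B hc k1, a5, b5⟩
  obtain ⟨C1, p1, h1⟩ := (a6 1).1.le
  obtain ⟨C2, p2, h2⟩ := (a6 1).2.le
  obtain ⟨C3, p3, h3⟩ := (b6 1).1.le
  obtain ⟨C4, p4, h4⟩ := (b6 1).2.le
  refine ⟨C1 + C2 + C3 + C4, Bool.forall_bool.2 ⟨fun w hw x (hx : 0 ≤ -x.2) =>
    ⟨(h1 w hw x (by linarith)).trans ?_, (h2 w hw x (by linarith)).trans ?_⟩,
    fun w hw x (hx : 0 ≤ x.2) =>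
    ⟨(h3 w hw x (by linarith)).trans ?_, (h4 w hw x (by linarith)).trans ?_⟩⟩⟩ <;> gcongr <;> linarith

end Crest.Agent.X212.Cay24
end
end

-- ▼ part X212/En36/Dir

/-! EN-DIR (helper36): decay of the densities and the limits of the Dirac term. -/

set_option autoImplicit false
set_option linter.unusedSectionVars false
noncomputable section
open scoped Manifold ContDiff Topology InnerProductSpace
open MeasureTheory Set Function Filter Asymptotics

namespace Crest.Agent.X212.En36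
open An Wz78 Sob92 Nd18 Cyf70 Dgr80
open Cyc79 (cb_sm cb_bdd)

section big
variable {X V W : Type} [NormedAddCommGroup V] [NormedSpace ℝ V] [NormedAddCommGroup W]
  [NormedSpace ℝ W] {l : Filter X} {e f g : X → ℝ}

theorem o1 {u : X → V} (h : ∃ C, ∀ x, ‖u x‖ ≤ C) : u =O[l] fun _ => (1 : ℝ) :=
  let ⟨C, h⟩ := h; IsBigO.of_bound C (.of_forall fun x => by simpa using h x)

theorem o_app {T : X → V →L[ℝ] W} {u : X → V} (hT : T =O[l] f) (hu : u =O[l] g) :
    (fun x => T x (u x)) =O[l] fun x => f x * g x :=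
  (isBigO_of_le l (g := fun x => ‖T x‖ * ‖u x‖) fun x =>
    ((T x).le_opNorm _).trans (le_abs_self _)).trans (hT.norm_left.mul hu.norm_left)

theorem app1 {T : X → V →L[ℝ] W} {u : X → V} (hT : T =O[l] fun _ => (1 : ℝ)) (hu : u =O[l] e) :
    (fun x => T x (u x)) =O[l] e := by simpa using o_app hT hu

theorem app2 {T : X → V →L[ℝ] W} {u : X → V} (hT : T =O[l] e) (hu : u =O[l] fun _ => (1 : ℝ)) :
    (fun x => T x (u x)) =O[l] e := by simpa using o_app hT hu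

theorem clm (T : V →L[ℝ] W) {u : X → V} (hu : u =O[l] e) : (fun x => T (u x)) =O[l] e :=
  (T.isBigO_comp u l).trans hu

theorem o_pi {ι : Type} [Fintype ι] {u : X → Fm ι V} (h : ∀ k, (fun x => u x k) =O[l] e) :
    u =O[l] e := clm (PiLp.continuousLinearEquiv 2 ℝ fun _ : ι => V).symm.toContinuousLinearMap
  (u := fun x k => u x k) (isBigO_pi.2 h)

theorem o_inn {U : Type} [NormedAddCommGroup U] [InnerProductSpace ℝ U] {u v : X → U}
    (hu : u =O[l] f) (hv : v =O[l] g) : (fun x => ⟪u x, v x⟫_ℝ) =O[l] fun x => f x * g x :=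
  (isBigO_of_le l (g := fun x => ‖u x‖ * ‖v x‖) fun x =>
    (norm_inner_le_norm _ _).trans (le_abs_self _)).trans (hu.norm_left.mul hv.norm_left)

end big

theorem int_exp {δ : ℝ} (hδ : 0 < δ) : Integrable fun t : ℝ => Real.exp (-δ * |t|) := by
  rw [← integrableOn_univ, ← Iic_union_Ioi (a := 0)]
  exact ((integrableOn_exp_mul_Iic hδ 0).congr_fun (fun t ht => by
    simp [abs_of_nonpos (show t ≤ 0 from ht)]) measurableSet_Iic).union
    ((integrableOn_exp_mul_Ioi (neg_lt_zero.2 hδ) 0).congr_fun (fun t ht => by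
      simp [abs_of_pos (show 0 < t from ht)]) measurableSet_Ioi)

section int
variable {Y : Type} [MeasurableSpace Y] {μ : Measure Y} [IsFiniteMeasure μ] {d : ℝ}

/-- the two half cylinders -/
abbrev hf (Y : Type) (s : Bool) : Filter (Y × ℝ) := 𝓟 {x | 0 ≤ (bif s then x.2 else -x.2)}

/-- the decay -/
abbrev ex (d : ℝ) (x : Y × ℝ) : ℝ := Real.exp (-d * |x.2|)

theorem int_of (hd : 0 < d) {f : Y × ℝ → ℝ} (hm : AEStronglyMeasurable f (μ.prod volume))
    (h : ∀ s, f =O[hf Y s] ex d) : Integrable f (μ.prod volume) := by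
  choose C hC using fun s => isBigO_principal.1 (h s)
  refine ((integrable_const (max (C true) (C false))).mul_prod (int_exp hd)).mono' hm
    (ae_of_all _ fun x => ?_)
  have k : ∀ s, C s * ‖ex d x‖ ≤ max (C true) (C false) * Real.exp (-d * |x.2|) := fun s => by
    rw [Real.norm_of_nonneg (Real.exp_pos _).le]
    exact mul_le_mul_of_nonneg_right (by cases s <;> simp) (Real.exp_pos _).le
  rcases le_total 0 x.2 with j | j
  exacts [(hC true x j).trans (k _), (hC false x (neg_nonneg.2 j)).trans (k _)]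

theorem lim_of (hd : 0 < d) {f : Y × ℝ → ℝ} (hm : AEStronglyMeasurable f (μ.prod volume))
    {g : Bool → Y → ℝ} (hg : ∀ s, Integrable (g s) μ)
    (h : ∀ s, (fun x => f x - g s x.1) =O[hf Y s] ex d) :
    Tendsto (fun n : ℕ => ∫ x, deriv (ct (some (-n)) (some n) 0) x.2 * f x ∂μ.prod volume) atTop
      (𝓝 (∫ y, g false y ∂μ - ∫ y, g true y ∂μ)) := by
  obtain ⟨B, hB⟩ := bd_ct
  set θ : ℕ → ℝ → ℝ := fun n => ct (some (-n)) (some n) 0
  have sm : ∀ n, ContDiff ℝ 1 (θ n) := fun n => contDiff_ct.of_le (by simp)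
  have cs : ∀ n, HasCompactSupport (θ n) := fun n => (isCompact_Icc (a := -(n : ℝ)) (b := n)).of_isClosed_subset
    (isClosed_tsupport _) (tsupport_ct.trans fun t k => ⟨by simpa using k.1 _ rfl, by simpa using k.2 _ rfl⟩)
  have i1 : ∀ n, Integrable (deriv (θ n)) := fun n =>
    ((sm n).continuous_deriv le_rfl).integrable_of_hasCompactSupport (cs n).deriv
  have i2 : ∀ n s {S : Set ℝ}, MeasurableSet S → Integrable
      (fun x : Y × ℝ => g s x.1 * S.indicator (deriv (θ n)) x.2) (μ.prod volume) :=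
    fun n s S hS => (hg s).mul_prod ((i1 n).indicator hS)
  let u : Y × ℝ → ℝ := fun x =>
    f x - g false x.1 * (Iic 0).indicator 1 x.2 - g true x.1 * (Ioi 0).indicator 1 x.2
  have mu : AEStronglyMeasurable u (μ.prod volume) :=
    (hm.sub ((hg _).1.comp_fst.mul (aestronglyMeasurable_one.indicator measurableSet_Iic).comp_snd)).sub
      ((hg _).1.comp_fst.mul (aestronglyMeasurable_one.indicator measurableSet_Ioi).comp_snd)
  have iu : Integrable u (μ.prod volume) := by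
    choose C hC using fun s => isBigO_principal.1 (h s)
    refine int_of hd mu fun s => isBigO_principal.2 ⟨max (C true) (C false), fun x _ => ?_⟩
    rcases le_or_gt x.2 0 with j | j
    · simpa [u, j] using (hC false x (neg_nonneg.2 j)).trans
        (mul_le_mul_of_nonneg_right (le_max_right _ _) (norm_nonneg _))
    · simpa [u, j, j.not_ge] using (hC true x j.le).trans
        (mul_le_mul_of_nonneg_right (le_max_left _ _) (norm_nonneg _))
  have bd : ∀ n t, ‖deriv (θ n) t‖ ≤ B 1 := fun n t => by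
    simpa using (hB _ _ _).2 1 1 le_rfl t
  have mθ : ∀ n, AEStronglyMeasurable (fun x : Y × ℝ => deriv (θ n) x.2) (μ.prod volume) :=
    fun n => (i1 n).1.comp_snd
  have t0 : Tendsto (fun n => ∫ x, deriv (θ n) x.2 * u x ∂μ.prod volume) atTop (𝓝 0) := by
    rw [← integral_zero (Y × ℝ) ℝ (μ := μ.prod volume)]
    refine tendsto_integral_of_dominated_convergence (fun x => B 1 * ‖u x‖)
      (fun n => (mθ n).mul mu) (iu.norm.const_mul _) (fun n => ae_of_all _ fun x => by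
        rw [norm_mul]; exact mul_le_mul_of_nonneg_right (bd n _) (norm_nonneg _))
      (ae_of_all _ fun x => tendsto_const_nhds.congr' ?_)
    filter_upwards [tendsto_natCast_atTop_atTop.eventually_gt_atTop (|x.2| + 1)] with n hn
    have : θ n =ᶠ[𝓝 x.2] fun _ => 1 := by
      filter_upwards [(isOpen_Ioo (a := -(n : ℝ) + 1) (b := n - 1)).mem_nhds
        ⟨by linarith [neg_abs_le x.2], by linarith [le_abs_self x.2]⟩] with t k
      exact ct_one ⟨by simpa using k.1.le, by simpa using k.2.le⟩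
    rw [this.deriv_eq, deriv_const, zero_mul]
  rw [← zero_add (_ - _)]
  refine (t0.add tendsto_const_nhds).congr' ?_
  filter_upwards [eventually_ge_atTop 1] with n hn
  have one : θ n 0 = 1 := ct_one ⟨by simpa using hn, by simpa using hn⟩
  have e : ∀ x : Y × ℝ, deriv (θ n) x.2 * f x = deriv (θ n) x.2 * u x +
      (g false x.1 * (Iic 0).indicator (deriv (θ n)) x.2 +
        g true x.1 * (Ioi 0).indicator (deriv (θ n)) x.2) := fun x => by
    rcases le_or_gt x.2 0 with j | j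
    · simp [u, j]; ring
    · simp [u, j, j.not_ge]; ring
  rw [integral_congr_ae (ae_of_all _ e), integral_add (iu.bdd_mul (mθ n) (ae_of_all _ fun x => bd n _))
    ((i2 n _ measurableSet_Iic).fun_add (i2 n _ measurableSet_Ioi)),
    integral_add (i2 n _ measurableSet_Iic) (i2 n _ measurableSet_Ioi), integral_prod_mul,
    integral_prod_mul, integral_indicator measurableSet_Iic, integral_indicator measurableSet_Ioi,
    (cs n).integral_Iic_deriv_eq (sm n), (cs n).integral_Ioi_deriv_eq (sm n), one]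
  ring

theorem ex1 (hd : 0 < d) {l : Filter (Y × ℝ)} : ex d =O[l] fun _ => (1 : ℝ) :=
  o1 ⟨1, fun x => by
    rw [Real.norm_of_nonneg (Real.exp_pos _).le, Real.exp_le_one_iff]
    nlinarith [abs_nonneg x.2]⟩

theorem o_sq (hd : 0 < d) {V : Type} [NormedAddCommGroup V] {l : Filter (Y × ℝ)} {u : Y × ℝ → V}
    (h : u =O[l] ex d) : (fun x => ‖u x‖ ^ 2) =O[l] ex d := by
  simpa [sq] using h.norm_left.mul (h.trans (ex1 hd)).norm_left

end int

section gen
variable {E : Type} [NormedAddCommGroup E] [NormedSpace ℝ E] [FiniteDimensional ℝ E]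
  [MeasurableSpace E] [BorelSpace E]
  {HM : Type} [TopologicalSpace HM] {I : ModelWithCorners ℝ E HM} [I.Boundaryless]
  {M : Type} [TopologicalSpace M] [ChartedSpace HM M] [IsManifold I ∞ M]
  [MeasurableSpace M] [T2Space M] [BorelSpace M] [SecondCountableTopology M]
  {ι : Type} [Fintype ι] {lam : Type} [Fintype lam] {r : ℕ} {l : Filter M} {e : M → ℝ}
  {V : Type} [NormedAddCommGroup V] [NormedSpace ℝ V]

theorem ob {F : Pre I M ι} {u : M → V} (h : F.Cb u) : u =O[l] fun _ => (1 : ℝ) := o1 (cb_bdd h)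

theorem o_nab {F : Pre I M ι} {W W' : ι → M → V →L[ℝ] V} {u u' : M → V} {k : ι} (hu : F.Cb u)
    (hu' : F.Cb u') (hW : F.Cb (W' k)) (h0 : (u - u') =O[l] e) (h1 : F.D k (u - u') =O[l] e)
    (h2 : (W k - W' k) =O[l] e) :
    (fun x => nab I F.e W k u x - nab I F.e W' k u' x) =O[l] e :=
  ((h1.add (app1 (ob hW) h0)).add (app2 h2 (ob hu))).congr_left fun x => by
    rw [Pre.D_def, dv_sub ((cb_sm hu).mdifferentiableAt (by simp))
      ((cb_sm hu').mdifferentiableAt (by simp))]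
    simp only [nab, Pi.sub_apply, map_sub, _root_.sub_apply]
    abel

variable {B : Base M ι lam} {G : Geo I M ι lam} {c : Cfg M ι lam r}

theorem o_Fg (h : Cyc79.CO B G c) : c.m.Fg G.F c.W =O[l] fun _ => (1 : ℝ) :=
  o_pi fun s => app1 (ob h.pg) (clm hsL (u := curv I G.F.e G.F.c c.W s.1 s.2)
    (ob (F := G.F.toPre) (Cb_sub (Cb_add (Cb_sub (Cb_D (h.W _) _) (Cb_D (h.W _) _))
      (Cb_sub (Cb_comp (h.W _) (h.W _)) (Cb_comp (h.W _) (h.W _))))
      (Cb_sum _ fun k _ => Cb_smul ⟨_, h.tame.choose_spec.c _ _ k⟩ (h.W k)))))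

theorem cb_dir (h : Gd B G c) : G.F.Cb (dir I G.F.e c.m.ρ c.W c.Φ) :=
  Cb_sum _ fun a _ => Cb_app (h.ρ a) (Cb_add (Cb_D h.Φ a) (Cb_app (h.W a) h.Φ))

end gen

variable {E3 : Type} [NormedAddCommGroup E3] [NormedSpace ℝ E3] [FiniteDimensional ℝ E3]
  [MeasurableSpace E3] [BorelSpace E3]
  {H3 : Type} [TopologicalSpace H3] {I3 : ModelWithCorners ℝ E3 H3} [I3.Boundaryless]
  {Y : Type} [TopologicalSpace Y] [ChartedSpace H3 Y] [IsManifold I3 ∞ Y] [T2Space Y]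
  [MeasurableSpace Y] [BorelSpace Y] [SecondCountableTopology Y] [CompactSpace Y]
  {κ : Type} [Fintype κ] {lam : Type} [Fintype lam]

section ti
variable {N : Type} [NormedAddCommGroup N] [NormedSpace ℝ N] (D : YD I3 Y κ lam) {f : Y → N}
  (h : Sm (IC I3) fun x : Y × ℝ => f x.1)
include h

theorem D_n0 (x : Y × ℝ) : D.Z.D none (fun x => f x.1) x = 0 :=
  (D_none _ h _).trans (deriv_const x.2 (f x.1))

theorem D_ti (k : Option κ) (x : Y × ℝ) :
    D.Z.D k (fun x => f x.1) (x.1, 0) = D.Z.D k (fun x => f x.1) x := by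
  cases k
  exacts [(D_n0 D h _).trans (D_n0 D h _).symm, (D_some _ h _ _).trans (D_some _ h _ x).symm]

end ti

variable {D : YD I3 Y κ lam} {β : YC Y κ lam} {d : ℝ} {α : Y × ℝ → Fm (Option κ) β.m.A}
  {φ : Y × ℝ → β.m.V} {a : Bool → Y → Fm (Option κ) β.m.A} {b : Bool → Y → β.m.V}

variable (β) in
/-- the connection `β + α` -/
def W0 (α : Y × ℝ → Fm (Option κ) β.m.A) (k : Option κ) (x : Y × ℝ) : En (Fin β.m.N) :=
  β.W k x.1 + opL (α x k)

variable (β) in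
/-- the spinor `β + φ` -/
def P0 (φ : Y × ℝ → β.m.V) (x : Y × ℝ) : β.m.V := β.Φ x.1 + φ x

variable (β) in
/-- Clifford multiplication -/
def R0 (k : Option κ) (x : Y × ℝ) : En (Fin β.m.N) := β.m.ρ k x.1

variable (D) in
/-- the Dirac operator of a limit -/
def D0 (a : Y → Fm (Option κ) β.m.A) (b : Y → β.m.V) : Y × ℝ → β.m.V :=
  dir (IC I3) D.Z.e (R0 β) (W0 β fun x => a x.1) (P0 β fun x => b x.1)

/-- evaluation of a one-form -/
abbrev L0 (k : Option κ) : Fm (Option κ) β.m.A →L[ℝ] En (Fin β.m.N) :=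
  opL ∘L PiLp.proj (𝕜 := ℝ) 2 (fun _ : Option κ => β.m.A) k

theorem eW (α α' : Y × ℝ → Fm (Option κ) β.m.A) (k : Option κ) :
    W0 β α k - W0 β α' k = fun z => L0 k (α z - α' z) := funext fun _ =>
  (add_sub_add_left_eq_sub _ _ _).trans (map_sub opL _ _).symm

theorem eP (φ φ' : Y × ℝ → β.m.V) : P0 β φ - P0 β φ' = fun z => φ z - φ' z :=
  funext fun _ => add_sub_add_left_eq_sub _ _ _

section tq
variable (T : Tq D β d α φ a b) (s : Bool)
include T

theorem hAP {w : List (Option κ)} (hw : w.length ≤ 1) :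
    D.Z.Dw w (fun z => α z - a s z.1) =O[hf Y s] ex d ∧
      D.Z.Dw w (fun z => φ z - b s z.1) =O[hf Y s] ex d := by
  obtain ⟨C, hC⟩ := T.lim
  have n : ∀ x : Y × ℝ, Real.exp (-d * |x.2|) = ‖ex d x‖ := fun x =>
    (Real.norm_of_nonneg (Real.exp_pos _).le).symm
  exact ⟨isBigO_principal.2 ⟨C, fun x hx => n x ▸ (hC s w hw x hx).1⟩,
    isBigO_principal.2 ⟨C, fun x hx => n x ▸ (hC s w hw x hx).2⟩⟩

theorem cW (k : Option κ) : D.Z.Cb (W0 β α k) := T.gd.W k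

theorem cW' (k : Option κ) : D.Z.Cb (W0 β (fun x => a s x.1) k) := (T.lgd s).W k

theorem cP : D.Z.Cb (P0 β φ) := T.gd.Φ

theorem cP' : D.Z.Cb (P0 β fun x => b s x.1) := (T.lgd s).Φ

theorem cR (k : Option κ) : D.Z.Cb (R0 β k) := T.gd.ρ k

theorem cD : D.Z.Cb (D0 D (a s) (b s)) := cb_dir (T.lgd s)

theorem oP : (P0 β φ - P0 β fun x => b s x.1) =O[hf Y s] ex d :=
  eP φ _ ▸ (hAP T s (w := []) zero_le_one).2

theorem hn (k : Option κ) : (fun x => nab (IC I3) D.Z.e (W0 β α) k (P0 β φ) x -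
    nab (IC I3) D.Z.e (W0 β fun x => a s x.1) k (P0 β fun x => b s x.1) x) =O[hf Y s] ex d :=
  o_nab (cP T) (cP' T s) (cW' T s k) (oP T s) (eP φ _ ▸ (hAP T s (w := [k]) le_rfl).2)
    (eW α _ k ▸ clm (L0 k) (hAP T s (w := []) zero_le_one).1)

variable [DecidableEq κ] (P : PN D.B D.G Prod.snd none univ)
include P

theorem xp : xP D.Z (vr (cy β) α φ) Prod.snd =O[hf Y s] ex d := (hn T s none).congr_left fun x => by
  have e : nab (IC I3) D.Z.e (W0 β fun x => a s x.1) none (P0 β fun x => b s x.1) x = 0 := by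
    rw [nab, show W0 β (fun x => a s x.1) none x = 0 from (T.lad s).tmp x.1]
    exact (add_zero _).trans (D_n0 D (f := fun y => β.Φ y + b s y) (cb_sm (cP' T s)) x)
  rw [e, sub_zero]
  exact (P.toPrd.xP_eq (vr (cy β) α φ) (mem_univ x)).symm

theorem xa : xA D.Z (vr (cy β) α φ) Prod.snd =O[hf Y s] ex d := o_pi fun k =>
  (app1 (ob T.gd.pg) (clm hsL (clm (L0 k) (hAP T s (w := [none]) le_rfl).1))).congr_left fun x => by
    refine (congrArg (fun T => β.m.pg x.1 (hsL T)) ?_).trans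
      (P.toPrd.xA_eq (vr (cy β) α φ) (mem_univ x) k).symm
    have w0 : W0 β α none = 0 := funext fun x => by simp [W0, T.adm.tmp, T.tm]
    have e := dv_sub (e := D.Z.e none) (x := x) ((cb_sm (cW T k)).mdifferentiableAt (by simp))
      ((cb_sm (cW' T s k)).mdifferentiableAt (by simp))
    rw [eW, ← Pre.D_def _ _ (W0 β (fun x => a s x.1) k),
      show D.Z.D none (W0 β (fun x => a s x.1) k) x = 0 from
        D_n0 D (f := fun y => β.W k y + opL (a s y k)) (cb_sm (cW' T s k)) x] at e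
    refine ((dv_clm (L0 k) (((cb_sm T.cA).sub (sm_fst (T.sa s))).mdifferentiableAt
      (by simp))).symm.trans e).trans (?_ : _ = curv (IC I3) D.Z.e D.Z.c (W0 β α) none k x)
    simp [curv, w0, show ∀ l, D.Z.c none k l x = 0 from P.c1 x trivial k]

theorem o_kd : (vr (cy β) α φ).m.kd D.B D.Z (vr (cy β) α φ).W =O[hf Y s] ex d := by
  have h1 := (isBigO_of_le (hf Y s) fun x => Mp86.norm_p2 P.hB _ x _).trans (o_Fg T.gd.toCO)
  have h2 := (isBigO_of_le (hf Y s) fun x => (P.toPrd.norm_oT (mem_univ x) _).le).trans (xa T s P)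
  refine (((((o_sq T.d0 (xa T s P)).const_mul_left 4⁻¹).sub (((o_inn h1 h2).congr_right
    fun x => one_mul _).const_mul_left 2⁻¹)).const_mul_left (8 * Real.pi ^ 2)⁻¹).congr_left
    fun x => ?_)
  rw [inv_mul_eq_iff_eq_mul₀ (by positivity), ← div_eq_inv_mul, ← div_eq_inv_mul, sub_eq_iff_eq_add]
  exact P.kd_eq T.gd.adm (mem_univ x)

theorem o_dY : (fun x => ⟪dY D.Z (vr (cy β) α φ) Prod.snd x, P0 β φ x⟫_ℝ -
    ⟪-β.m.ρ none x.1 (D0 D (a s) (b s) (x.1, 0)), β.Φ x.1 + b s x.1⟫_ℝ) =O[hf Y s] ex d := by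
  have h1 : (fun x => dir (IC I3) D.Z.e (R0 β) (W0 β α) (P0 β φ) x - D0 D (a s) (b s) x)
      =O[hf Y s] ex d := (IsBigO.sum (s := .univ) fun k _ => app1 (ob (cR T k))
      (hn T s k)).congr_left fun x => (Finset.sum_apply _ _ _).trans <| (Finset.sum_congr rfl
        fun k _ => map_sub _ _ _).trans (Finset.sum_sub_distrib _ _)
  let X : Y × ℝ → β.m.V := xP D.Z (vr (cy β) α φ) Prod.snd
  have h2 := o_inn ((app1 (ob (cR T none)) h1).neg_left.sub (f₂ := X) (xp T s P)) (ob (cP T))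
  have h3 := o_inn (app1 (ob (cR T none)) (ob (cD T s))).neg_left (oP T s)
  refine ((h2.congr_right fun x => mul_one _).add (h3.congr_right fun x => one_mul _)).congr_left
    fun x => ?_
  have e : D0 D (a s) (b s) (x.1, 0) = D0 D (a s) (b s) x := Finset.sum_congr rfl fun k _ =>
    congrArg (fun v => R0 β k x (v + W0 β (fun x => a s x.1) k x (P0 β (fun x => b s x.1) x)))
      (D_ti D (f := fun y => β.Φ y + b s y) (cb_sm (cP' T s)) k x)
  have e' : dY D.Z (vr (cy β) α φ) Prod.snd x =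
      -R0 β none x (dir (IC I3) D.Z.e (R0 β) (W0 β α) (P0 β φ) x) - X x :=
    congrArg (fun T : En (Fin β.m.N) => -T _ - X x) (P.toPrd.cT_eq (vr (cy β) α φ) (mem_univ x))
  rw [e, e']
  change _ = @inner ℝ β.m.V _ _ _ - ⟪-R0 β none x _, P0 β (fun x => b s x.1) x⟫_ℝ
  simp only [map_sub, inner_sub_left, inner_sub_right, inner_neg_left, Pi.sub_apply]
  ring

end tq

/-- **LEAF EN-DIR** -/
theorem dirStmt : DirStmt I3 Y κ lam := by
  intro D hD β d α φ a b T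
  classical
  have P := Nka63.nk_pn D hD
  have A := T.gd.adm
  refine ⟨int_of T.d0 (P.sm_en A).continuous.aestronglyMeasurable fun s => ?_,
    int_of T.d0 (P.sm_kd A).continuous.aestronglyMeasurable fun s => o_kd T s P,
    lim_of (μ := D.F.μ) (g := fun s y => ⟪-β.m.ρ none y (D0 D (a s) (b s) (y, 0)), β.Φ y + b s y⟫_ℝ)
      T.d0 (sm_inner (P.sm_dY A) A.sm).continuous.aestronglyMeasurable (fun s => ?_)
      fun s => o_dY T s P⟩
  · exact (((o_sq T.d0 (xa T s P)).const_mul_left 4⁻¹).add (o_sq T.d0 (xp T s P))).congr_left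
      fun x => by rw [en, div_eq_inv_mul]
  · exact ((((cb_sm (cR T none)).clm_apply (cb_sm (cD T s))).continuous.neg.inner
      (cb_sm (cP' T s)).continuous).comp
        (Continuous.prodMk_left 0)).integrable_of_hasCompactSupport (.of_compactSpace _)

end Crest.Agent.X212.En36
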